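import Vale.Agent.P104.Flat

/-! Flat frames with explicit data. -/

namespace Vale.Agent.P104

open scoped InnerProductSpace ComplexOrder ComplexConjugate
open Finset

variable {A E : Type*} [CStarAlgebra A] [NormedAddCommGroup E] [InnerProductSpace ℂ E]
  {τ : A →ₗ[ℂ] ℂ} {Λ : A →ₗ[ℂ] E} [PartialOrder A] [StarOrderedRing A]

theorem Tr.flat0 (h : Tr τ Λ) {e : A} (hcen : ∀ x, e * x = x * e) (hs : ∀ x, τ (x * e) = τ x)
    {ι : Type*} [Fintype ι] (F : ι → A) {I : Type} [Fintype I] [DecidableEq I] [Nonempty I]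
    {v : I → A} {g : A} (hv : Frame v g e) :
    ∃ (w : I → A) (H : I → I → ℂ), Frame w g e ∧ (∀ i, w i * star (w i) = v i * star (v i)) ∧
      Frame (fun x => ∑ i, H x i • w i) g e ∧ ∑ a, ∑ x,
        ‖Λ (star (∑ i, H x i • w i) * (∑ l, F l * (v a * star (v a)) * star (F l)) *
          ∑ i, H x i • w i)‖ ^ 2 ≤
          (‖∑ l, star (F l) * e * F l‖ * (τ (∑ l, F l * e * star (F l))).re + 1 +
            2 * (‖∑ l, F l * e * star (F l)‖ * (τ (∑ l, F l * e * star (F l))).re)) /
            Fintype.card I := by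
  set Z := ∑ l, F l * e * star (F l) with hZ
  set G := ∑ l, star (F l) * e * F l with hG
  set Y : I → A := fun a => ∑ l, F l * (v a * star (v a)) * star (F l) with hY
  have n0 : (0 : ℝ) < Fintype.card I := by exact_mod_cast Fintype.card_pos
  have P := hv.part
  have se : star e = e := by simpa using P.sa none
  have Y0 : ∀ a, 0 ≤ Y a := fun a => sum_nonneg fun l _ =>
    star_right_conjugate_nonneg (mul_star_self_nonneg _) _
  have YZ : ∑ a, Y a = Z := by
    rw [sum_comm]
    simp only [← sum_mul, ← mul_sum, hv.sum, hZ]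
  have Y1 : ∑ a, ∑ i, ∑ j, ‖Λ (star (v i) * Y a * v j)‖ ^ 2 ≤ ‖Z‖ * (τ Z).re := by
    conv_rhs => enter [2]; rw [← YZ, map_sum, Complex.re_sum]
    rw [mul_sum]
    refine sum_le_sum fun a _ => le_trans (le_of_eq ?_) (h.mul_le (Y0 a)
      ((single_le_sum (fun a _ => Y0 a) (mem_univ a)).trans (YZ ▸ le_norm_smul
        (sum_nonneg fun a _ => Y0 a).isSelfAdjoint.star_eq)))
    have : ∀ i j, τ (star (star (v i) * Y a * v j) * (star (v i) * Y a * v j)) =
        τ (Y a * (v i * star (v i)) * Y a * (v j * star (v j))) := fun i j => by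
      rw [star_mul, star_mul, star_star, (Y0 a).isSelfAdjoint.star_eq, mul_assoc, h.tr]
      simp only [mul_assoc]
    simp only [h.nsq, this, ← Complex.re_sum, ← map_sum, ← mul_sum, ← sum_mul, hv.sum]
    rw [hs, ← hcen, mul_assoc, hcen, hs]
  obtain ⟨J, _, _, u, hu, hJ⟩ := h.dixmier hv.sa
    (fun a (b : I × ι) => star (v b.1) * F b.2 * v a) (fun a b => by
      rw [Commute, SemiconjBy, mul_assoc, hv.fix, ← mul_assoc, ← mul_assoc, hv.fix'])
    (C := ‖G‖) fun a => by
      have e1 : ∑ b : I × ι, star (star (v b.1) * F b.2 * v a) * (star (v b.1) * F b.2 * v a) =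
          star (v a) * G * v a := by
        rw [Fintype.sum_prod_type_right, hG, ← hv.sum]
        simp only [star_mul, star_star, mul_sum, sum_mul, mul_assoc]
      rw [e1]
      refine (conj_le_smul (le_norm_smul (by simp [hG, star_sum, se, mul_assoc])) _).trans
        (smul_le_smul_of_nonneg_left ?_ (norm_nonneg _))
      rw [hv.orth, if_pos rfl]
      exact IsStarProjection.le_one ⟨hv.idem, hv.sa⟩
  have e2 : ∀ a, ∑ b : I × ι, star (v b.1) * F b.2 * v a * star (star (v b.1) * F b.2 * v a) =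
      ∑ i, star (v i) * Y a * v i := fun a => by
    rw [Fintype.sum_prod_type]
    simp only [hY, star_mul, star_star, mul_sum, sum_mul, mul_assoc]
  have e3 : ∑ a, (τ (∑ i, star (v i) * Y a * v i)).re = (τ Z).re := by
    rw [← YZ, map_sum, Complex.re_sum]
    refine sum_congr rfl fun a _ => ?_
    rw [← hs (Y a), ← hv.sum, mul_sum, map_sum, map_sum]
    exact congrArg _ (sum_congr rfl fun i _ => by rw [mul_assoc, h.tr, mul_assoc])
  simp only [e2, e3] at hJ
  obtain ⟨σ, hσ⟩ := greedy (fun i j => WithLp.toLp 2 fun a =>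
    Λ (star (u j) * (star (v i) * Y a * v i) * u j))
    (fun i => ∑ a, ‖Λ (star (v i) * Y a * v i)‖ ^ 2) (fun i j => by
      simp only [PiLp.norm_sq_eq_of_L2, h.norm_ur (hu j).1, h.norm_ul (Unitary.star_mem (hu j).1),
        le_refl]) univ 0
  have e4 : ∀ a, Λ (avg u (∑ i, star (v i) * Y a * v i)) = ∑ i, (Fintype.card J : ℂ)⁻¹ •
      ∑ j, Λ (star (u j) * (star (v i) * Y a * v i) * u j) := fun a => by
    simp only [avg, mul_sum, sum_mul, map_smul, map_sum, ← smul_sum]
    rw [sum_comm]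
  simp only [zero_add, PiLp.norm_sq_eq_of_L2, WithLp.ofLp_sum, Finset.sum_apply, PiLp.smul_apply,
    ← e4] at hσ
  have Y2 : ∑ i, ∑ a, ‖Λ (star (v i) * Y a * v i)‖ ^ 2 ≤
      ∑ a, ∑ i, ∑ j, ‖Λ (star (v i) * Y a * v j)‖ ^ 2 := by
    rw [sum_comm]
    exact sum_le_sum fun a _ => sum_le_sum fun i _ => single_le_sum
      (f := fun j => ‖Λ (star (v i) * Y a * v j)‖ ^ 2) (fun _ _ => sq_nonneg _) (mem_univ i)
  obtain ⟨H, H1, H2, H3⟩ := exists_fourier I
  have hw := hv.twist fun i => hu (σ i)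
  set w : I → A := fun i => v i * u (σ i) with hw'
  have hP := phase_rt I 2
  set z := fun (θ : I → Fin (2 + 1)) (i : I) => rt 2 ^ (θ i : ℕ)
  have H4 : ∀ x i, ‖H x i‖ ^ 2 = (Fintype.card I : ℝ)⁻¹ := fun x i => by
    rw [sq]
    simpa using congrArg norm (H1 x i)
  have w1 : ∀ a i j, ‖Λ (star (w i) * Y a * w j)‖ = ‖Λ (star (v i) * Y a * v j)‖ := fun a i j => by
    rw [hw', star_mul, ← mul_assoc, h.norm_ur (hu _).1, mul_assoc, mul_assoc,
      h.norm_ul (Unitary.star_mem (hu _).1), mul_assoc]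
  have w2 : ∀ a i, star (w i) * Y a * w i =
      star (u (σ i)) * (star (v i) * Y a * v i) * u (σ i) := fun a i => by
    simp only [hw', star_mul, mul_assoc]
  obtain ⟨θ, -, hθ⟩ := exists_le_of_sum_le (s := univ) univ_nonempty
    (f := fun θ => ∑ a, ∑ x, ‖∑ i, ∑ j, (conj (z θ i) * z θ j) •
      (conj (H x i) * H x j) • Λ (star (w i) * Y a * w j)‖ ^ 2)
    (g := fun _ => (‖G‖ * (τ Z).re + 1 + 2 * (‖Z‖ * (τ Z).re)) / Fintype.card I) (by
      rw [sum_comm, sum_congr rfl fun _ _ => sum_comm, sum_const, card_univ, nsmul_eq_mul]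
      refine (sum_le_sum fun a _ => sum_le_sum fun x _ => hP.sum_quad le_rfl _).trans ?_
      simp only [H1, ← smul_sum, norm_smul, norm_mul, mul_pow, Complex.norm_conj, H4, w1, w2,
        ← mul_sum, norm_inv, Complex.norm_natCast, sum_const, card_univ, nsmul_eq_mul,
        sum_add_distrib]
      gcongr
      rw [le_div_iff₀ n0]
      field_simp
      linarith)
  refine ⟨w, fun x i => z θ i * H x i, hw, fun i => by
    rw [hw', star_mul, mul_assoc, ← mul_assoc (u _), (hu _).1.2, one_mul],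
    hw.mix (H := fun x i => z θ i * H x i) (fun x y => ?_) (fun i j => ?_),
    le_of_eq_of_le ?_ hθ⟩
  · simp only [map_mul, mul_mul_mul_comm (conj (z θ _)), conj_mul_self_of_norm (hP.norm _ _),
      one_mul, H2]
  · simp only [map_mul, mul_mul_mul_comm (conj (z θ _)), ← mul_sum, H3 _ i, H3 _ j, H2]
    split_ifs with c
    · rw [c, conj_mul_self_of_norm (hP.norm _ _), one_mul]
    · exact mul_zero _
  · refine sum_congr rfl fun a _ => sum_congr rfl fun x _ => ?_
    change ‖Λ (_ * Y a * _)‖ ^ 2 = _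
    simp only [star_sum, star_smul, sum_mul, mul_sum, smul_mul_assoc, mul_smul_comm, map_sum,
      map_smul, smul_smul, Complex.star_def, map_mul, smul_sum]
    rw [sum_comm]
    simp only [mul_comm, mul_left_comm, mul_assoc]

end Vale.Agent.P104
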